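import Vale.Agent.P297A41.Rows
import Vale.Agent.P009S59.Geo
import Vale.Agent.P009S96.Dom

/-!
# P297A, row SCH: every classical abelian variety is a group scheme
-/

open CategoryTheory AlgebraicGeometry MonoidalCategory CartesianMonoidalCategory

namespace Vale.Agent.P297A

open Vale.Agent.P009S (VA ev)
open Vale.Agent.P009.AV (PP Bihom IrrClosed)

theorem sch_prod (X G : Sch) [LocallyOfFiniteType X.hom] [IsIntegral X.left]
    [LocallyOfFiniteType G.hom] [GeometricallyIntegral G.hom] :
    LocallyOfFiniteType (X ⊗ G).hom ∧ IsIntegral (X ⊗ G).left := by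
  have : IsLocallyNoetherian X.left := LocallyOfFiniteType.isLocallyNoetherian X.hom
  exact ⟨inferInstanceAs (LocallyOfFiniteType (Limits.pullback.fst X.hom G.hom ≫ X.hom)),
    inferInstanceAs (IsIntegral (Limits.pullback X.hom G.hom))⟩

theorem sch73 (hL : LIFT) (hP : POLY) (hQ : POLY2) (hV : VAR) : SCH := by
  intro ι _ A
  obtain ⟨G, _, _, D, e, he, e1, e2⟩ := hV ι _ A.irr
  have hg : GeometricallyIntegral G.hom := P009S.abs_geo P009S.dom G.hom
  let ε : Pt G ≃ A.G := (Equiv.ofInjective e e1).trans
    ((Equiv.setCongr e2).trans (Equiv.ofInjective A.emb A.emb_inj).symm)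
  have hε : ∀ x, A.emb (ε x) = e x := fun x =>
    Equiv.apply_ofInjective_symm A.emb_inj _
  have hε' : ∀ a, e (ε.symm a) = A.emb a := fun a => by rw [← hε, Equiv.apply_symm_apply]
  obtain ⟨_, _⟩ := sch_prod G G
  obtain ⟨_, _⟩ := sch_prod (G ⊗ G) G
  obtain ⟨m, hm⟩ := hL (G ⊗ G) G _ _ D e he
    (fun P => ε.symm (ε (P ≫ fst G G) + ε (P ≫ snd G G)))
    (hQ _ ι _ _ _ ((loc_emb he).comp (fst G G)) ((loc_emb he).comp (snd G G)) fun P => by
      obtain ⟨F, f1, f2, f3⟩ := A.add_reg (ε (P ≫ fst G G)) (ε (P ≫ snd G G))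
      refine ⟨F, f1, by simpa only [hε] using f2, fun P' h => ?_⟩
      simpa only [hε, hε'] using f3 (ε (P' ≫ fst G G)) (ε (P' ≫ snd G G))
        (by simpa only [hε] using h))
  obtain ⟨n, hn⟩ := hL G G _ _ D e he (fun P => ε.symm (-ε P))
    (hP _ ι ι _ _ (loc_emb he) fun P => by
      obtain ⟨F, d, f1, f2, f3⟩ := A.neg_reg (ε P)
      refine ⟨F, d, f1, by simpa only [hε] using f2, fun P' h => ?_⟩
      simpa only [hε, hε'] using f3 (ε P') (by simpa only [hε] using h))
  have h2 : ∀ P : Pt (G ⊗ G), ε (P ≫ m) = ε (P ≫ fst G G) + ε (P ≫ snd G G) := fun P => by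
    rw [hm, Equiv.apply_symm_apply]
  have h3 : ∀ P : Pt G, ε (P ≫ n) = -ε P := fun P => by rw [hn, Equiv.apply_symm_apply]
  have h1 : ∀ t : 𝟙_ Sch ⟶ 𝟙_ Sch, ε (t ≫ ε.symm 0) = 0 := fun t => by
    rw [toUnit_unique t (𝟙 _), Category.id_comp, Equiv.apply_symm_apply]
  let M : MonObj G :=
    { one := ε.symm 0
      mul := m
      one_mul := by
        rw [← Iso.inv_comp_eq_id]
        refine ext_pt fun P => ε.injective ?_
        rw [← Category.assoc, ← Category.assoc, h2]
        simp only [Category.assoc, whiskerRight_fst, whiskerRight_snd, leftUnitor_inv_snd,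
          Category.comp_id]
        rw [← Category.assoc, ← Category.assoc, h1, zero_add]
      mul_one := by
        rw [← Iso.inv_comp_eq_id]
        refine ext_pt fun P => ε.injective ?_
        rw [← Category.assoc, ← Category.assoc, h2]
        simp only [Category.assoc, whiskerLeft_fst, whiskerLeft_snd, rightUnitor_inv_fst,
          Category.comp_id]
        rw [← Category.assoc, ← Category.assoc, h1, add_zero]
      mul_assoc := by
        refine ext_pt fun P => ε.injective ?_
        rw [← Category.assoc, h2, ← Category.assoc, ← Category.assoc, h2]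
        simp only [Category.assoc, whiskerLeft_fst, whiskerLeft_snd, whiskerRight_fst,
          whiskerRight_snd, associator_hom_fst]
        rw [← Category.assoc P (fst _ _) m, h2, ← Category.assoc _ (snd _ _) m,
          ← Category.assoc P _ m, h2]
        simp only [Category.assoc, associator_hom_snd_fst, associator_hom_snd_snd, add_assoc] }
  let Γ : GrpObj G :=
    { toMonObj := M
      inv := n
      left_inv := by
        show lift n (𝟙 G) ≫ m = toUnit G ≫ ε.symm 0
        refine ext_pt fun P => ε.injective ?_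
        rw [← Category.assoc, h2, ← Category.assoc P (toUnit G), h1]
        simp only [Category.assoc, lift_fst, lift_snd, Category.comp_id, h3, neg_add_cancel]
      right_inv := by
        show lift (𝟙 G) n ≫ m = toUnit G ≫ ε.symm 0
        refine ext_pt fun P => ε.injective ?_
        rw [← Category.assoc, h2, ← Category.assoc P (toUnit G), h1]
        simp only [Category.assoc, lift_fst, lift_snd, Category.comp_id, h3, add_neg_cancel] }
  refine ⟨⟨G, inferInstance, hg⟩, ⟨ι, D, { ε with map_add' := fun x y => ?_ }, ?_⟩⟩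
  · have := h2 (lift (Additive.toMul x) (Additive.toMul y))
    rw [lift_fst, lift_snd] at this
    exact this
  · exact (funext hε : (fun x => A.emb (ε x)) = e) ▸ he

end Vale.Agent.P297A
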